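import Vale.Agent.P014U.Zr.Gal

/-! # P014U, block Zr: the derived class -/

set_option autoImplicit false
set_option linter.all false

open scoped Classical
open NumberField Matrix

noncomputable section

namespace Vale.Agent.P014U.Zr

open Vale.Agent.P022 (Qb GQ)
open Vale.Agent.P022K.G2 (In)
open Vale.Agent.P022E.GW (Ov)
open Vale.Agent.P004F (hq M2)
open Vale.Agent.P004M.TE (Pt ga al)
open Top (El nq)
open Dr (Hm Zn Fm Gr Eu Cd aa Ug)
open Kx.Tw (rz co)
open Ew (rj)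
open Pl (Dn il psi)
open Pl.Zw (sn)

variable [Pp] {A B : ℤ} {n N' M l : ℕ} {S T : Finset ℕ} {a : ℕ → ℤ} {Ad : ℕ → Prop} {z : Fm N'}

/-- the reduced family -/
def zr (f : Zn N' →+* Zn n) (z : Fm N') : Fm n := fun M R _ j Ψ => z M R (j.comp f) Ψ

section

variable (h : El A B) (f : Zn N' →+* Zn n) (le : n ≤ N')
include le

theorem rj_red (g : GQ) : rj (hq h) n g = f.mapMatrix (rj (hq h) N' g) := by
  ext i k
  exact (red_rz f le _).symm

theorem gr_red (G : Gr (rj (hq h) N') T a Ad) : Gr (rj (hq h) n) T a Ad :=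
  have f : Zn N' →+* Zn n := ZMod.castHom (pow_dvd_pow pp le) _
  ⟨G.two, fun l P o s i m => by rw [rj_red h f le, G.unr l P o s i m, map_one], fun l P φ o s k => by
    obtain ⟨e1, e2⟩ := G.frb l P φ o s k
    rw [rj_red h f le, ← f.map_det, e1, map_natCast, ← map_intCast f, ← e2, trace_fin_two,
      trace_fin_two, map_add]
    exact ⟨rfl, rfl⟩, G.pos, G.ad2, G.adl⟩

theorem eu_red (E : Eu (rj (hq h) N') T a Ad z) : Eu (rj (hq h) n) T a Ad (zr f z) :=
  ⟨fun M R _ j Ψ m c => aa_red h f le j Ψ ▸ E.co M R _ Ψ m c,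
    fun M R R' _ _ k j Ψ g i m => E.map M R R' k _ Ψ g i m, fun M R _ j Ψ => E.two M R _ Ψ,
    fun M R _ j Ψ => E.odd M R _ Ψ⟩

end

/-- the derived class -/
def z1 (h : El A B) (f : Zn N' →+* Zn n) (z : Fm N') (M : ℕ)
    {W : ZMod l → Zn n} {χ : GQ → Zn n} (X : Rb.Lx l n W χ) (g : GQ) : Pt A B :=
  co (hq h) n (sn n ∘ z (M * l) (Dn n) ((il n).comp f) (psi X) g)

theorem der1 {h : El A B} (G : Gr (rj (hq h) N') T a Ad)
    (E : Eu (rj (hq h) N') T a Ad z) (f : Zn N' →+* Zn n) (le : n ≤ N') (m : Ad M)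
    (ug : ∀ p P, Ov p P → p ∉ S → Ug (rj (hq h) n) p P) (ha : al A B l = a l)
    {W : ZMod l → Zn n} {χ : GQ → Zn n} (X : Rb.Lx l n W χ)
    (lT : l ∉ T) (lM : ¬ l ∣ M) {y : GQ → Pt A B} {t : Pt A B} {k : ℤ}
    (hy : ∀ g, y g = k • co (hq h) n (z M (Zn n) f 1 g) + (ga g t - t)) :
    Rb.Cn n ((k * l) • z1 h f z M X) ∧
    (∀ g ∈ In (insert l S : Finset ℕ), ((k * l) • z1 h f z M X) g = 0) ∧
    ∀ g j, ((k * l) • z1 h f z M X) (g * j) = ((k * l) • z1 h f z M X) g +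
      ga g (((k * l) • z1 h f z M X) j) + (χ g).val • ga g (nq A B l • y j +
        (ga j (-nq A B l • t) - -nq A B l • t)) := by
  have G' := gr_red h le G
  have E' := eu_red h f le E
  obtain ⟨⟨d1, d2, d3, -⟩, d4⟩ := Pl.du G' E' m lT lM X (Ew.xy_co (hq h) n).act
  refine ⟨⟨d1.comp fun v => (k * l) • v, fun g => by
    rw [Pi.smul_apply, smul_comm]; exact (congrArg _ (d2 g)).trans (zsmul_zero _)⟩,
    fun i ⟨p, hp, P, o, hi⟩ => ?_, fun g j => ?_⟩
  · simp only [Finset.coe_insert, Set.mem_insert_iff, not_or, Finset.mem_coe] at hp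
    have := Dr.unr0 G' E' (G'.adl M l m X.pr lT lM) (ι := il n) (Pl.psi_cd X M)
      (fun g => ⟨2, by rw [Pl.psi_apply, add_sub_cancel_left, _root_.sq, TrivSqZeroExt.inr_mul_inr]⟩)
      (ug p P o hp.2) hi (by rw [Pl.psi_apply, X.ur o hp.1 hi, TrivSqZeroExt.inr_zero, add_zero])
    rw [Pi.smul_apply, z1, show z _ _ _ _ i = 0 from this, show sn n ∘ (0 : Fin 2 → Dn n) = 0 from
      funext fun _ => map_zero _, map_zero, zsmul_zero]
  · have k1 := congrArg (ga g) (d4 j)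
    have k2 : z1 h f z M X (g * j) = z1 h f z M X g + ga g (z1 h f z M X j) + _ := d3 g j
    rw [show Pl.bot (zr f z) M j = z M (Zn n) f 1 j from rfl] at k1
    simp only [Pi.smul_apply, k2, hy, nq, ha, map_add, map_sub, map_zsmul] at k1 ⊢
    linear_combination (norm := module) ((χ g).val * k) • k1

end Vale.Agent.P014U.Zr
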