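import Vale.Agent.P014T.Zr.Num
import Vale.Agent.P014U.Pl.Lwx
import Vale.Agent.P014U.Rb.Chi
import Vale.Agent.P014U.Ah.Log

/-! # P014U, block Zr: the numbers in the reciprocity law -/

set_option autoImplicit false
set_option linter.all false

open scoped Classical NumberTheorySymbols UpperHalfPlane

noncomputable section

namespace Vale.Agent.P014U.Zr

open Vale.Agent.P022 (Qb GQ)
open Vale.Agent.P004Z (ee)
open Vale.Agent.P004M.TE (al)
open Vale.Agent.P027M.M (io)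
open P004N (RN)
open P014T.Top (Ad w0 cS)
open P014T.Rk (Lw)
open P014T.An (cp pw_mod pw_const)
open P014T.Pl.Zw (wt)
open P014T.Rc (sm)
open P014T.Zr (s0 ev0)
open P014T.Zr.Nm (ch Tn s0_eq wt_two wt_inv wt_nat wt_neg ch_mul cop_iff alg)

variable [Pp] {δ A B A' B' : ℤ} {N l c d q n D : ℕ} {G : ℍ → ℂ} {a : ℕ → ℤ} {S : Finset ℕ}

/-- **the value for the logarithm** -/
theorem num1 (T : Tn δ S a A B A' B') (R : RN N G a) (D0 : D ≠ 0)
    (hD : ∀ r : ℚ, ∃ k : ℤ, D * (Lw a fun n => ee (n * r)).re = k * w0 A B) (hs0 : s0 δ c d ≠ 0) (pS : pp ∈ S)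
    {r : Qb} (hr : io r = √δ) : ∃ m : ℕ, Lw (al A' B') (cS S 1) = 0 → ∀ (n q l : ℕ)
      (W : ZMod q → ZMod (pp ^ n)) (b : Qb), q.Prime → q ∉ S →
      (∀ x y, x ≠ 0 → y ≠ 0 → W (x * y) = W x + W y) → W (-1) = 0 → l ≠ 0 →
      l.primeFactors = insert q S → c.Coprime l → d.Coprime l →
      (io b * w0 A B = Lw a fun j => sm c d (wt l fun k => ch δ k * (W k).val) j) →
      ∀ ι : Qb →+* ℂ_[pp], ∃ x : Qb,
        io x * w0 A' B' = Lw (al A' B') (cS (insert q S) fun k => (W k).val) ∧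
        ‖ι (b * r / s0 δ c d - x)‖ * (pp : ℝ) ^ n ≤ (pp : ℝ) ^ m := by
  have r1 : (1 : ℝ) < pp := Nat.one_lt_cast.2 one_lt
  obtain ⟨m, hm⟩ := pow_unbounded_of_one_lt
    ‖((D * (∏ p ∈ S, p : ℕ) * s0 δ c d : ℂ_[pp]))⁻¹‖ r1
  refine ⟨m, fun h0 n q l W b hq qS mul W1 l0 hl hc hd hb ι => ?_⟩
  have := NeZero.mk l0
  have := Fact.mk hq
  have S0 := P014T.Pl.Lw.pr_ne T.pm
  have L0 : q * ∏ p ∈ S, p ≠ 0 := mul_ne_zero hq.ne_zero S0
  have := NeZero.mk L0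
  have dv := T.dvl (hl ▸ Finset.subset_insert _ _)
  have dL : δ.natAbs ∣ q * ∏ p ∈ S, p := T.dv.mul_left _
  have ql : q ∣ l := Nat.dvd_of_mem_primeFactors (hl ▸ Finset.mem_insert_self _ _)
  obtain ⟨π, hπ⟩ : ∃ π : ZMod l →+* ZMod q, ∀ x, (x.val : ZMod q) = π x :=
    ⟨ZMod.castHom ql _, fun x => by rw [ZMod.castHom_apply, ZMod.natCast_val]⟩
  obtain ⟨V, hV⟩ : ∃ V : ZMod q → ℤ, ∀ y, V y = (W y).val := ⟨_, fun _ => rfl⟩
  have ev : ∀ y, V (-y) = V y := fun y => by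
    by_cases e : y = 0
    · rw [e, neg_zero]
    · rw [hV, hV, ← neg_one_mul, mul _ _ (by simp) e, W1, zero_add]
  have un : ∀ k : ℕ, k.Coprime l → π (k : ZMod l)⁻¹ ≠ 0 := fun k h e => by
    simpa [e] using congrArg π (ZMod.coe_mul_inv_eq_one k h)
  obtain ⟨F, hF⟩ : ∃ F : ZMod q → ℤ, ∀ y, F y = -(c * d ^ 2 * ch δ c) * V (π (c : ZMod l)⁻¹ * y) -
    c ^ 2 * d * ch δ d * V (π (d : ZMod l)⁻¹ * y) +
    c * d * ch δ c * ch δ d * V (π ((c * d : ℕ) : ZMod l)⁻¹ * y) := ⟨_, fun _ => rfl⟩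
  obtain ⟨U, hU⟩ : ∃ U : ZMod q → ℤ, ∀ y, U y = (c ^ 2 * d ^ 2 * V y + F y - s0 δ c d * V y - F 1) / pp ^ n :=
    ⟨_, fun _ => rfl⟩
  have eU : ∀ y, y ≠ 0 → c ^ 2 * d ^ 2 * V y + F y - s0 δ c d * V y - F 1 = pp ^ n * U y := fun y e => by
    rw [hU, Int.mul_ediv_cancel']
    rw [show (pp : ℤ) ^ n = (pp ^ n : ℕ) by simp, ← ZMod.intCast_zmod_eq_zero_iff_dvd]
    simp only [hF, hV, mul _ _ (un c hc) e, mul _ _ (un d hd) e, mul _ _ (un _ (hc.mul_left hd)) e,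
      mul_one, ← s0_eq]
    push_cast
    simp only [ZMod.natCast_zmod_val]
    ring
  obtain ⟨π', -⟩ : ∃ π' : ZMod (q * ∏ p ∈ S, p) →+* ZMod q, True :=
    ⟨ZMod.castHom (dvd_mul_right _ _) _, trivial⟩
  set X := wt (q * ∏ p ∈ S, p) (ch δ) with hX
  have e : ∀ j : ℕ, (sm c d (wt l fun k => ch δ k * (W k).val) j : ℂ) =
      s0 δ c d * (X j * V (π' j) : ℤ) + (F 1 * X j + pp ^ n * (X j * U (π' j) : ℤ)) := fun j => by
    have t : wt l (ch δ) j = X j := by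
      simp only [hX, wt_nat dv, wt_nat dL, cop_iff l0 hl, Finset.prod_insert qS]
    have t' : X j * (c ^ 2 * d ^ 2 * V j + F j - s0 δ c d * V j - F 1) = X j * (pp ^ n * U j) := by
      by_cases k : j.Coprime (q * ∏ p ∈ S, p)
      · rw [eU _ ((P014T.Pl.Lw.cop hq j).1 (k.coprime_dvd_right (dvd_mul_right _ _)))]
      · simp only [hX, wt_nat dL, if_neg k, zero_mul]
    rw [hF] at t'
    rw [sm, ← Nat.cast_mul (α := ZMod l) c d]
    simp only [wt_two, hπ, ← hV, wt_inv dv hc, wt_inv dv hd, wt_inv dv (hc.mul_left hd), ch_mul, t,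
      map_mul, map_natCast]
    norm_cast
    push_cast at t' ⊢
    linear_combination t'
  have p1 := pw_mod L0 fun x => ((X x * V (π' x) : ℤ) : ℂ)
  have p2 := pw_mod L0 fun x => (X x : ℂ)
  have p3 := pw_mod L0 fun x => ((X x * U (π' x) : ℤ) : ℂ)
  have q2 := (pw_const (F 1 : ℂ)).op p2 (· * ·)
  have q3 := (pw_const ((pp : ℂ) ^ n)).op p3 (· * ·)
  have z1 : (Lw a fun j => ((X j * V (π' j) : ℤ) : ℂ)) =
      Lw (al A' B') (cS (insert q S) fun k => (W k).val) := by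
    rw [T.lw (Finset.subset_insert _ _), Finset.prod_insert qS]
    exact congrArg _ (funext fun j => by simp [hX, wt_nat dL, cp, hV])
  have z2 : (Lw a fun j => (X j : ℂ)) = 0 := by
    have := P014T.Rk.Lw_rm (w := fun j => ch δ j) R ⟨δ.natAbs, by have := T.pos; omega, fun j : ℕ => by
      simp only [ch]
      rw [jacobiSym.mod_left' (a₂ := j) (b := δ.natAbs) (by rw [Nat.cast_add, Int.add_emod_right])]⟩
      hq (fun j => by simp [ch_mul]) S0 fun k => by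
        obtain ⟨p, m, k⟩ := (hq.prime.dvd_finset_prod_iff _).1 k
        exact qS ((Nat.prime_dvd_prime_iff_eq hq (T.pm p m)).1 k ▸ m)
    rw [T.lw le_rfl] at h0
    simp only [Pi.one_apply, mul_one] at h0
    rw [h0, mul_zero] at this
    rw [← this]
    exact congrArg _ (funext fun j => by simp [hX, wt_nat dL, cp])
  obtain ⟨y, iy, hy, -⟩ := alg R hD (f := fun x => X x * U (π' x)) fun x => by
    simp only [hX, wt_neg dL T.d4, map_neg, hU, hF, mul_neg, ev]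
  simp only [e] at hb
  rw [P014T.Rk.Lw_add R ((pw_const _).op p1 (· * ·)) (q2.op q3 (· + ·)), P014T.Rk.Lw_add R q2 q3, P014T.Rk.Lw_smul,
    P014T.Rk.Lw_smul, P014T.Rk.Lw_smul, z1, z2, ← T.per] at hb
  rw [← T.per] at hy
  have c1 {F : Type} [Field F] [CharZero F] : (D : F) ≠ 0 ∧ ((q * ∏ p ∈ S, p : ℕ) : F) ≠ 0 ∧
      (s0 δ c d : F) ≠ 0 := ⟨Nat.cast_ne_zero.2 D0, Nat.cast_ne_zero.2 L0, Int.cast_ne_zero.2 hs0⟩
  refine ⟨(b - pp ^ n * y / (D * (q * ∏ p ∈ S, p : ℕ))) * r / s0 δ c d, ?_, ?_⟩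
  · obtain ⟨c1, c2, c3⟩ := c1 (F := ℂ)
    simp only [map_div₀, map_mul, map_sub, map_pow, map_natCast, map_intCast, map_ofNat, hr]
    rw [Complex.ofReal_mul] at hb hy
    field_simp
    linear_combination (D * (q * ∏ p ∈ S, p : ℕ) : ℂ) * hb - pp ^ n * hy
  · obtain ⟨c1, c2, c3⟩ := c1 (F := ℂ_[pp])
    have n1 : ‖(q : ℂ_[pp])‖ = 1 := Ah.nrm_odd Ah.two_lt fun k =>
      qS ((Nat.prime_dvd_prime_iff_eq pp_prime hq).1 k ▸ pS)
    have ir : IsIntegral ℤ r := IsIntegral.of_pow two_pos (by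
      rw [show r ^ 2 = δ from (io : Qb →+* ℂ).injective (by
        rw [map_pow, RingHom.coe_coe, hr, map_intCast, ← Complex.ofReal_pow,
          Real.sq_sqrt (Int.cast_pos.2 T.pos).le, Complex.ofReal_intCast])]
      exact isIntegral_algebraMap (x := δ))
    rw [Nat.cast_mul] at c2
    have c4 := left_ne_zero_of_mul c2
    have c5 := right_ne_zero_of_mul c2
    rw [show ι (b * r / s0 δ c d - (b - pp ^ n * y / (D * (q * ∏ p ∈ S, p : ℕ))) * r / s0 δ c d) =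
      (D * (∏ p ∈ S, p : ℕ) * s0 δ c d : ℂ_[pp])⁻¹ * pp ^ n * (ι (y * r) / q) by
        simp only [map_div₀, map_mul, map_sub, map_pow, map_natCast, map_intCast, map_ofNat,
          Nat.cast_mul]
        field_simp
        ring, norm_mul, norm_mul, norm_div, n1, norm_pow, Ah.two_C, div_one,
      mul_right_comm, mul_assoc ‖_‖, ← mul_pow, one_div, inv_mul_cancel₀ (zero_lt_one.trans r1).ne', one_pow, mul_one]
    exact (mul_le_of_le_one_right (norm_nonneg _) (Pl.nrm_le ι (iy.mul ir))).trans hm.le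

theorem ev1 [NeZero l] (ad : Ad δ) (pos : 0 < δ) (dv : δ.natAbs ∣ l) {W : ZMod q → ZMod (pp ^ n)}
    {χ : GQ → ZMod (pp ^ n)} (X : Rb.Lx q n W χ) (W1 : W (-1) = 0) (ql : q ∣ l) (x : ZMod l) :
    wt l (fun k => J(k | δ.natAbs) * (W k).val) (-x) =
      wt l (fun k => J(k | δ.natAbs) * (W k).val) x := by
  have := Fact.mk X.pr
  have hπ : ∀ x : ZMod l, (x.val : ZMod q) = ZMod.castHom ql (ZMod q) x := fun x => by
    rw [ZMod.castHom_apply, ZMod.natCast_val]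
  rw [wt_two, wt_two, ev0 ad pos dv, hπ, hπ, map_neg]
  by_cases e : ZMod.castHom ql (ZMod q) x = 0
  · rw [e, neg_zero]
  · rw [← neg_one_mul, X.mul _ _ (by simp) e, W1, zero_add]

end Vale.Agent.P014U.Zr
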