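import Vale.Agent.P014T.Zr.Top
import Vale.Agent.P014U.Zr.Der
import Vale.Agent.P014U.Zr.Num
import Vale.Agent.P014U.Ct.St
import Vale.Agent.P014U.Dr.Shp
import Vale.Agent.P014U.Pp.Glk

/-! # P014U, block Zr: the row `RR` -/

set_option autoImplicit false
set_option linter.all false

open scoped Classical MatrixGroups NumberTheorySymbols ComplexConjugate UpperHalfPlane
open NumberField Matrix

noncomputable section

namespace Vale.Agent.P014U.Zr

open Vale.Agent.P022 (Qb GQ)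
open Vale.Agent.P022D.W (dec)
open X4S.Ga (K)
open Vale.Agent.P004F (hq M2)
open Vale.Agent.P004M.TE (Pt ga al)
open Vale.Agent.P027M.M (Mdl FF io cv)
open P004N (RN)
open Ah (am)
open P014T.Rk (Lw)
open Top (w0 El Pm nq)
open Rc (KZ REC sm)
open Dr (Hm Zn Gr Cd Ch aa ch_iff)
open Kx.Tw (rz co)
open Ew (rj cz)
open Pl (Dn il psi)
open Pl.Zw (Ce wt sn)
open Ct (Gam Bad Aq Lf Sm Lv dl RR)
open P014T.Zr (s0 ev0 c24 tn_bad)
open P014T.Zr.Nm (Tn ch)
open P014T.Es (sy)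

variable [Pp] {Kz : KZ} {X : Mdl} {N w c n M : ℕ} {G I : ℍ → ℂ} {a : ℕ → ℤ} {A B : ℤ} {x y : FF}
  {γ : SL(2, ℤ)} {S : Finset ℕ} {b : Pp.Bs}

theorem rg_of (H : REC Kz) (X : Mdl) (r : RN N G a) (p : P014T.Pu.ParY N a A B w I (cv x) (cv y))
    (g : Gam N I A B γ) : Rg Kz X N a p.disc x y γ := by
  intro ι P h lg lk
  obtain ⟨-, -, c0, μ, vol, o, e⟩ := g
  have c1 : (c0 : ℂ) ≠ 0 := Complex.ofReal_ne_zero.2 fun k => by
    obtain ⟨t, v, u0, v0, s⟩ := P014T.Rc.shape p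
    obtain ⟨u, u', f, f'⟩ := vol
    obtain ⟨i, j, e1⟩ := (f _).1 ((s _).2 ⟨1, 0, rfl⟩)
    obtain ⟨i', j', e2⟩ := (f _).1 ((s _).2 ⟨0, 1, rfl⟩)
    have z := abs_eq_zero.1 (f'.symm.trans k)
    have a1 := congrArg Complex.re e1
    have a2 := congrArg Complex.im e1
    have a3 := congrArg Complex.re e2
    have a4 := congrArg Complex.im e2
    simp at z a1 a2 a3 a4
    refine (mul_pos u0 v0).ne' ?_
    rw [a1, a4]
    linear_combination (i * j' - j * i') * z - (i' * u.re + j' * u'.re) * a2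
  obtain ⟨R, l0, H⟩ := H X N G a A B w I x y (hq p.disc) ι P h lg r p lk
  refine ⟨R, l0, fun M n l el n0 M0 M2 Nl => ?_⟩
  obtain ⟨u, ou, H⟩ := H M n l el n0 M0 M2 Nl
  refine ⟨-(u * μ), fun k => nd_mul ou o (dvd_neg.1 k),
    fun c d z ad kz J _ s q κ ω R' wt ev hR => ?_⟩
  obtain ⟨b, θ, e1, e2, zn, e3⟩ := H c d γ z ad kz J s q κ ω R' c0 wt hR vol
  have m0 {F : Type} [Field F] [CharZero F] : (μ : F) ≠ 0 :=
    Int.cast_ne_zero.2 fun k => by simp [k] at o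
  refine ⟨b / (-2 * μ), θ / (-2 * μ), by simp [e1, map_ofNat], ?_, zn, ?_⟩
  · have e4 : ((sy I γ).im : ℂ) * w0 A B = μ * c0 := by exact_mod_cast e
    have e5 := Complex.sub_conj (sy I γ)
    simp only [P014T.Rc.sm_neg ev] at e2
    simp only [map_div₀, map_mul, map_neg, map_ofNat, map_intCast]
    push_cast at e5
    rw [div_mul_eq_mul_div, div_eq_iff (mul_ne_zero (by norm_num) m0)]
    refine mul_right_cancel₀ c1 ?_
    linear_combination (w0 A B : ℂ) * e2 + (Complex.I * Lw a (fun n => sm c d ω n) * w0 A B) * e5 +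
      (-2 * Lw a fun n => sm c d ω n) * e4 +
      (2 * Lw a (fun n => sm c d ω n) * w0 A B * (sy I γ).im) * Complex.I_mul_I
  · rw [e3]
    congr 1
    have := m0 (F := K)
    push_cast
    field_simp
    ring

theorem ch_one (k : ℕ) : ch 1 k = 1 := jacobiSym.one_right _

theorem wt_one {l : ℕ} (u : (ZMod l)ˣ) (t : ZMod l) : wt l (ch 1) (u * t) = wt l (ch 1) t := by
  simp only [P014T.Pl.Zw.wt, ch_one, Units.isUnit_units_mul]

variable [Fl]

theorem gr_aq (L : Lf N a b) (c1 : c.Prime) (cS : c ∉ b.S) (n : ℕ) :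
    Gr (b.ρ n) (insert c b.S) a (Aq n N ∅ c) := by
  have k : ∀ {M l : ℕ}, l.Prime → l ≠ c → Aq n N ∅ c M → Aq n N ∅ c (M * l) := fun p e m =>
    ⟨mul_ne_zero m.1 p.ne_zero, m.2.1.mul_right _, m.2.2.1.mul_right _,
      m.2.2.2.1.mul_left ((Nat.coprime_primes p c1).2 e), by simp⟩
  have s {l} (h : l ∉ insert c b.S) : l ∉ b.S := fun m => h (Finset.mem_insert_of_mem m)
  refine ⟨Finset.mem_insert_of_mem b.two, fun l P o h => (Pp.Gk.ug b n l P o (s h)).unr,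
    fun l P φ o h f => ⟨(Pp.Gk.ug b n l P o (s h)).det φ f, ?_⟩,
    fun M m => m.1, fun M => k pp_prime fun e => cS (e ▸ b.two),
    fun M l m p s _ => k p (fun e => s (e ▸ Finset.mem_insert_self _ _)) m⟩
  rw [← map_intCast (rz n), ← (L.gd l P o fun j => absurd j (s h)).2 φ f, trace_fin_two,
    trace_fin_two, map_add]
  rfl

theorem aq_two (q : Aq n N ∅ c M) (c1 : c.Prime) (c3 : 3 < c) (d : 2 ∣ M) :
    Aq n N ∅ c (M * 2) ∧ 4 ∣ M * 2 ∧ 4 * pp ^ n ∣ M * 2 :=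
  have e : 4 ∣ M * 2 := mul_dvd_mul_right d 2
  ⟨⟨mul_ne_zero q.1 two_ne_zero, q.2.1.mul_right _, q.2.2.1.mul_right _,
    q.2.2.2.1.mul_left ((Nat.coprime_primes Nat.prime_two c1).2 (by omega)), by simp⟩, e,
    (pp_prime.coprime_iff_not_dvd.2 nd_four).symm.pow_right n |>.mul_dvd_of_dvd_of_dvd e
      (((pow_dvd_pow _ n.le_succ).trans ((dvd_mul_left _ _).trans q.2.1)).mul_right _)⟩

theorem pf_two (M0 : M ≠ 0) (d : 2 ∣ M) : (M * 2).primeFactors = M.primeFactors := by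
  rw [Nat.primeFactors_mul M0 two_ne_zero, Nat.prime_two.primeFactors, Finset.union_eq_left,
    Finset.singleton_subset_iff]
  exact Nat.mem_primeFactors.2 ⟨Nat.prime_two, d, M0⟩

/-- **row RR** -/
theorem rr (H : REC Kz) : RR Kz := by
  intro X N G a A B w I x y p γ b c g₀ r gm mb ⟨c1, c3, cN⟩ cS g0
  have h := p.disc
  obtain ⟨P, o⟩ := P022K.GW.Pl.ex_ov pp_prime
  obtain ⟨ι, hι⟩ := Ah.ex_ind o
  obtain ⟨lg, lk⟩ := Lc.ex_lk (Rx.sI_ne h) (Rx.md A B) hι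
  obtain ⟨m1, H1⟩ := rc_cl (rg_of H X r p gm) hι lk
  have tn : Tn 1 b.S a A B A B := by
    simpa using tn_bad r h P014T.Top.ad_one one_pos b.pr fun q j k =>
      mb.bad q j (k.imp_left fun k => k.trans ⟨pp, by ring⟩)
  obtain ⟨D, D0, hD⟩ := P014T.Lk.hd h ⟨r, p.mat⟩
  obtain ⟨ρ, hρ⟩ := tn.rat r D0 hD
  have hr : io 1 = √((1 : ℤ) : ℝ) := by simp
  have sn0 := P014T.Zr.Nm.s0_ne (δ := 1) c1.one_lt c1.one_lt
  obtain ⟨m2, H3⟩ := num1 tn r D0 hD sn0 b.two hr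
  have es0 : Ct.s0 c = s0 1 c c := by
    rw [← P014T.Zr.Nm.s0_eq, ch_one, Ct.s0]
    push_cast
    ring
  have sK : (s0 1 c c : K) ≠ 0 := Int.cast_ne_zero.2 sn0
  have eρ : ∀ n, b.ρ n = rj (hq h) n := fun n => by rw [Pp.Bs.ρ, mb.r]; rfl
  refine ⟨P, ι, lg, ρ, max (max m1 m2) c, o, hι, lk, hρ,
    fun k m n n' f M z v mm le n0 L Z Kk V => ?_⟩
  simp only [max_le_iff] at mm
  have aq : Aq n' N ∅ c M := ⟨L.ne, L.two, L.dv, (c1.coprime_iff_not_dvd.2 fun j =>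
    cS (L.pf ▸ Nat.mem_primeFactors.2 ⟨c1, j, L.ne⟩)).symm, by simp⟩
  have M2 : 2 ∣ M :=
    Nat.dvd_of_mem_primeFactors (L.pf ▸ mb.lf.bad 2 Nat.prime_two (dvd_mul_right _ _))
  have ad : ∀ {M}, Aq n' N ∅ c M → Rc.Ad N M c c γ := fun q => ⟨c24 c1 c3, c24 c1 c3, q.2.2.2.1.symm,
    q.2.2.2.1.symm, cN, cN, gm.1, gm.2.1⟩
  have Gr := gr_aq mb.lf c1 cS n'
  obtain ⟨zE, E, hz⟩ := Dr.shp n' _ _ a _ _ Gr (Z.raw ∅ _ c (by simp [Ct.Dx])
    ⟨c1, c3, cN⟩ (Finset.mem_insert_self _ _) (Finset.empty_subset _)) g₀ g0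
  have eδ : (b.ρ n' g₀ - 1).det = rz n' (dl b g₀) := by
    rw [dl, RingHom.map_det, map_sub, map_one]
    rfl
  obtain ⟨v1, v2⟩ := V
  have up := fun M (R : Type) [CommRing R] j (Ψ : GQ →* R) q d e =>
    Z.up c M R j Ψ ⟨c1, c3, cN⟩ q d e g₀ g0
  rw [eδ] at hz up
  rw [eρ] at Gr E hz v1 v2 up
  have Y : Ew.Xy n (aa (rj (hq h) n') f 1) (co (hq h) n : _ →+ Pt A B) := by
    rw [show aa (rj (hq h) n') f 1 = rj (hq h) n from (aa_red h f le (RingHom.id _) 1).trans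
      (funext fun g => (one_smul _ _).trans (Matrix.map_id _))]
    exact Ew.xy_co _ _
  have c0 : Cd M (1 : GQ →* Zn n) := fun _ _ => rfl
  refine ⟨?_, Ew.cz_tor _, ?_, fun ρ0 l W χ Q lS ml W1 WS => ?_⟩
  · rw [map_zsmul]
    exact zsmul_mem (Y.zq_iff.1 v1) k
  · obtain ⟨a2, d4, dp⟩ := aq_two aq c1 c3 M2
    have := NeZero.mk a2.1
    obtain ⟨κ, C⟩ := Pl.Zw.ex_ce a2.1
    obtain ⟨β, θ, u1, a1, a3, zn, rc⟩ := H1 f (j := RingHom.id _) (π := AddMonoidHom.id _)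
      (ω := wt (M * 2) (ch 1)) (β := dl b g₀ ^ 2) (z := v) (Ψ := 1) le n0 dp a2.2.2.1 (ad a2) C
      (Kk _ a2 d4) (fun _ _ => rfl)
      (by rw [RingHom.id_comp, map_pow, map_pow]
          refine ch_iff.2 ((ch_iff.1 v2).trans ?_)
          rw [ch_iff.1 (up M _ f 1 aq M2 c0), red_rz f le, map_pow (PadicInt.toZModPow n)]) (fun _ _ => rfl)
      (fun g => by rw [C.wt_apply, ch_one, Int.cast_one]; rfl) Pl.Zw.wt_un
      (ev0 P014T.Top.ad_one one_pos (one_dvd _)) fun g j => ⟨rfl, fun t => wt_one _ _⟩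
    have a4 := congrArg ι (P014T.Zr.Nm.num0 tn a2.1 ((pf_two L.ne M2).trans L.pf) (ad a2).cl
      (ad a2).cl hr a3 hρ)
    have a5 : θ = s0 1 c c * ρ := am.injective (by
      simpa only [map_mul, map_intCast, map_ratCast, a1, mul_one] using a4)
    refine ⟨u1, Rx.rc_mono ?_ mm.1.1⟩
    rw [map_zsmul]
    refine (congrArg _ ?_).mp (Rx.rc_zsmul o zn rc k)
    rw [es0, a5]
    push_cast
    ring
  · have lc : l ≠ c := by omega
    have l' : l ∉ insert c b.S := fun j => (Finset.mem_insert.1 j).elim lc lS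
    have lM : ¬ l ∣ M := fun j => lS (L.pf ▸ Nat.mem_primeFactors.2 ⟨Q.pr, j, L.ne⟩)
    have aq' := Gr.adl M l aq Q.pr l' lM
    obtain ⟨a2, d4, dp⟩ := aq_two aq' c1 c3 (M2.mul_right l)
    have := NeZero.mk a2.1
    have dL : l ∣ M * l * 2 := (dvd_mul_left _ _).mul_right _
    have l2 : l ≠ pp := fun e => lS (e ▸ b.two)
    have v4 := (hz M (Zn n) f 1 aq c0).2.1
    rw [red_rz f le, ← map_pow] at v4
    obtain ⟨t, t0, ht⟩ := Y.ch_iff.1 (ch_iff.2 ((ch_iff.1 v2).trans (ch_iff.1 v4).symm))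
    obtain ⟨q1, q2, q3⟩ := der1 (h := h) Gr E f le aq (S := b.S)
      (fun q P o j => eρ n ▸ Pp.Gk.ug b n q P o j)
      (by_contra fun e => lS (mb.bad l Q.pr (.inr e))) Q l' lM
      (y := cz (co (hq h) n) (k • v)) (t := k • t) (k := k) fun g => by
        have := ht g trivial
        rw [Ew.cz_apply, Ew.cz_apply] at this
        rw [map_zsmul, Pi.smul_apply, Ew.cz_apply, map_zsmul]
        linear_combination (norm := module) k • this
    obtain ⟨κ, C⟩ := Pl.Zw.ex_ce a2.1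
    obtain ⟨β, θ, u1, a1, a3, zn, rc⟩ := H1 f (j := il n) (π := sn n)
      (ω := wt (M * l * 2) fun k => ch 1 k * (W k).val) (β := dl b g₀ ^ 2) (Ψ := psi Q) le n0 dp
      a2.2.2.1 (ad a2) C (Kk _ a2 d4) (fun _ _ => rfl)
      (by rw [map_pow, map_pow]
          exact ch_iff.2 ((ch_iff.1 (hz _ _ _ _ aq' (Pl.psi_cd Q M)).2.1).trans
            (ch_iff.1 (up _ _ _ _ aq' (M2.mul_right l) (Pl.psi_cd Q M))).symm)) Pl.Zw.sn_il
      (fun g => by
        rw [C.wt_apply, ch_one, ← Pl.Zw.Ce.lx C Q dL, one_mul, Int.cast_natCast,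
          ZMod.natCast_zmod_val, Pl.Zw.sn_psi Q]) Pl.Zw.wt_un
      (ev1 P014T.Top.ad_one one_pos (one_dvd _) Q W1 dL)
      fun g j => by
        have z := Q.dz o l2.symm (WS pp b.two) j
        exact ⟨by rw [Pl.psi_apply, z]; simp, fun t => by
          rw [P014T.Zr.Nm.wt_two, P014T.Zr.Nm.wt_two, wt_one, ← Units.val_mul,
            Pl.Zw.Ce.lx_mul C Q dL, z, zero_add]⟩
    obtain ⟨x', b1, b2⟩ := H3 (by rw [hρ, ρ0, Rat.cast_zero, zero_mul]) n l (M * l * 2) W β Q.pr lS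
      Q.mul W1 a2.1 (by rw [pf_two aq'.1 (M2.mul_right l), Nat.primeFactors_mul L.ne Q.pr.ne_zero,
        Q.pr.primeFactors, L.pf, Finset.union_comm, Finset.insert_eq]) (ad a2).cl (ad a2).cl a3 ι
    have ul : IsUnit (l : ℤ_[pp]) := PadicInt.isUnit_iff.2 (PadicInt.norm_natCast_eq_one_iff.2
      ((Nat.coprime_primes pp_prime Q.pr).2 l2.symm))
    refine ⟨_, _, io, x', θ / s0 1 c c, u1 * ul.unit, q1,
      by rw [smul_comm, smul_comm (pp ^ n), t0, zsmul_zero, zsmul_zero], q2, q3, b1, ?_,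
      Rx.rc_mono ?_ mm.1.1⟩
    · refine le_trans (le_of_eq ?_) (b2.trans (pow_le_pow_right₀ Rx.r1.le mm.1.2))
      simp only [map_sub, map_div₀, map_intCast, a1, mul_one]
    · refine (congrArg _ ?_).mp (Rx.rc_zsmul o zn rc (k * l))
      rw [es0, Units.val_mul, ul.unit_spec]
      push_cast
      field_simp

end Vale.Agent.P014U.Zr
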