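import Vale.Agent.P014U.Rc.St
import Vale.Agent.P014U.Rx.One
import Vale.Agent.P014U.Pl.Zw
import Vale.Agent.P014U.Ew.Dic

/-! # P014U, block Zr: the reciprocity law for the classes of the Euler system -/

set_option autoImplicit false
set_option linter.all false

open scoped Classical MatrixGroups
open NumberField Matrix

noncomputable section

namespace Vale.Agent.P014U.Zr

open Vale.Agent.P022 (Qb GQ)
open Vale.Agent.P022D.W (dec)
open Vale.Agent.P022E.GW (Ov)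
open X4S.Ga (K O)
open Vale.Agent.P004F (hq M2)
open X4F.Rc (mq hn)
open Vale.Agent.P004M.TE (Pt ga)
open Vale.Agent.P027M.M (Mdl FF io)
open Ah (Ind am)
open Lc (Lk)
open P014T.Sg (sF)
open P014T.Rk (Lw)
open Cp (cp)
open P014T.Wm (Fx)
open Top (w0 El)
open Rc (KZ rg sm zw Wt)
open Dr (Hm Zn Ch aa cor)
open Kx.Tw (rz co)
open Ew (rj)
open Pl.Zw (Ce Jx so pa ka)

variable [Pp] {Kz : KZ} {X : Mdl} {N : ℕ} {a : ℕ → ℤ} {A B : ℤ} {x y : FF} {γ : SL(2, ℤ)}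
  {ι : Qb →+* ℂ_[pp]} {P : Ideal (𝓞 Qb)} {n N' m : ℕ}

variable (Kz X N a) in
/-- the law for one symbol -/
def Rg (h : El A B) (x y : FF) (γ : SL(2, ℤ)) : Prop :=
  ∀ ι P (_ : Ind ι P) (lg : Fx A B (dec P) →+ K), Lk ι lg →
  ∃ R : Fx A B (dec P), lg R ≠ 0 ∧ ∀ M n l : ℕ, l = M * pp ^ n → 0 < n → 0 < M → 4 ∣ M → N ∣ l →
    ∃ u : ℤ, ¬ (pp : ℤ) ∣ u ∧ ∀ (c d : ℕ) z, Rc.Ad N l c d γ →
      Kz X A B x y l n (sF c (rg l γ 0)) (sF d (rg l γ 1)) z →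
      ∀ (J : Type) [Fintype J] s p (κ : J → ℤ) (ω : ZMod l → ℤ) R', Wt l (dec P) s p κ ω →
        (∀ x, ω (-x) = ω x) → pp ^ n • R' = R.1 → ∃ (b : Qb) (θ : K), am θ = ι b ∧
          io b * w0 A B = Lw a (fun n => sm c d ω n) ∧
          Cp.Zn (dec P) n (zw s p (fun i => ω (κ i)) z) ∧
          4 • Iv.iv P (cp (Ki.wp (hq h)) n (Bt.dd A B R') (zw s p (fun i => ω (κ i)) z)) =
            mq (hn n * lg R * (4 * u * θ))

theorem pz : Prime (pp : ℤ) := Nat.prime_iff_prime_int.1 pp_prime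

theorem nd_mul {u v : ℤ} (a : ¬ (pp : ℤ) ∣ u) (b : ¬ (pp : ℤ) ∣ v) : ¬ (pp : ℤ) ∣ u * v :=
  fun e => (pz.dvd_or_dvd e).elim a b

theorem nd_four : ¬ pp ∣ 4 := fun e =>
  (Nat.le_of_dvd two_pos (pp_prime.dvd_of_dvd_pow (show pp ∣ 2 ^ 2 from e))).not_gt two_lt

theorem un_int {u : ℤ} (h : ¬ (pp : ℤ) ∣ u) : IsUnit (u : ℤ_[pp]) := PadicInt.isUnit_iff.2 (by
  rw [PadicInt.norm_intCast_eq_one_iff]
  exact (pz.coprime_iff_not_dvd.2 h).symm)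

theorem zn_congr {H : Subgroup GQ} {z z' : GQ → Pt A B} (q : Cp.Zn H n z) (e : ∀ g ∈ H, z' g = z g) :
    Cp.Zn H n z' :=
  ⟨by simpa only [show (fun g : H => z' g) = fun g : H => z g from funext fun g => e g g.2] using q.lc,
    fun g p k r => by rw [e _ (mul_mem p r), e g p, e k r, q.co g p k r],
    fun g p => by rw [e g p, q.tr g p]⟩

theorem zn_cob {H : Subgroup GQ} {z z' : GQ → Pt A B} {t : Pt A B} (q : Cp.Zn H n z)
    (t0 : pp ^ n • t = 0) (e : ∀ g ∈ H, z' g = z g + (ga g t - t)) : Cp.Zn H n z' :=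
  zn_congr (q.add (Cp.zn_dd (x := t) (t0 ▸ zero_mem _))) e

/-- division by a number prime to `pp` -/
theorem rc_un {h : El A B} {lg : Fx A B (dec P) →+ K} {z : GQ → Pt A B} {μ : K} {c : ℕ}
    (o : Ov pp P) (q : Cp.Zn (dec P) n z) (hc : ¬ pp ∣ c) (r : Top.Rc h P lg m n (c • z) μ) :
    ∃ k : ℤ, ¬ (pp : ℤ) ∣ k ∧ Top.Rc h P lg m n z (k * μ) := by
  obtain ⟨u, v, e⟩ : IsCoprime (c : ℤ) (pp ^ (n + 1)) :=
    (pz.coprime_iff_not_dvd.2 fun d => hc (Int.natCast_dvd_natCast.1 d)).symm.pow_right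
  refine ⟨u, fun d => pz.not_unit (isUnit_of_dvd_one (e ▸ dvd_add (d.mul_right _)
    ((dvd_pow_self _ n.succ_ne_zero).mul_left _))), Rx.rc_congr o (Rx.Zn.zsmul (Rx.Zn.nsmul q c) u)
      (Rx.rc_zsmul o (Rx.Zn.nsmul q c) r u) q fun g p => ?_⟩
  rw [Pi.smul_apply, Pi.smul_apply, ← natCast_zsmul, ← mul_smul, eq_sub_of_add_eq e, sub_smul,
    one_smul, pow_succ', ← mul_assoc, mul_smul, ← Nat.cast_pow, natCast_zsmul, q.tr g p, zsmul_zero,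
    sub_zero]

theorem red_rz (f : Zn N' →+* Zn n) (le : n ≤ N') (u : ℤ_[pp]) : f (rz N' u) = rz n u := by
  rw [RingHom.ext_zmod f (ZMod.castHom (pow_dvd_pow pp le) _)]
  exact DFunLike.congr_fun (PadicInt.zmod_cast_comp_toZModPow n N' le) u

theorem aa_red (h : El A B) (f : Zn N' →+* Zn n) (le : n ≤ N') {R : Type} [CommRing R]
    (j : Zn n →+* R) (Ψ : GQ →* R) :
    aa (rj (hq h) N') (j.comp f) Ψ = aa (rj (hq h) n) j Ψ := by
  funext g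
  ext i k
  simp only [aa, Ew.rj_apply, Matrix.smul_apply, map_apply, RingHom.comp_apply, red_rz f le]

/-- an integer with the same norm and the same reduction -/
theorem ex_int (β : ℤ_[pp]) (n : ℕ) :
    ∃ (δ : ℤ) (u : ℤ_[pp]ˣ), (δ : ℤ_[pp]) = u * β ∧ rz n β = δ := by
  by_cases h : β = 0
  · exact ⟨0, 1, by simp [h], by simp [h]⟩
  obtain ⟨b, e⟩ := Ideal.mem_span_singleton.1 (PadicInt.appr_spec (n + β.valuation + 1) β)
  have s := PadicInt.unitCoeff_spec h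
  have u : IsUnit (1 - pp * (pp ^ n * b * ((PadicInt.unitCoeff h)⁻¹ : ℤ_[pp]ˣ)) : ℤ_[pp]) :=
    IsLocalRing.isUnit_one_sub_self_of_mem_nonunits _ (mul_mem_nonunits_left PadicInt.p_nonunit)
  refine ⟨β.appr (n + β.valuation + 1), u.unit, ?_, ?_⟩
  · have := (PadicInt.unitCoeff h).inv_mul
    rw [u.unit_spec, Int.cast_natCast]
    linear_combination -e + (pp * pp ^ n * b * ((PadicInt.unitCoeff h)⁻¹ : ℤ_[pp]ˣ)) * s +
      (pp * pp ^ n * b * pp ^ β.valuation) * this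
  · have := congrArg (rz n) e
    rwa [map_sub, map_mul, map_pow, map_natCast, map_natCast, add_assoc, pow_add, ← Nat.cast_pow,
      ZMod.natCast_self, zero_mul, zero_mul, sub_eq_zero, ← add_assoc, ← Int.cast_natCast] at this

/-- **the law for the class with weight `ω`** -/
theorem rc_cl {h : El A B} (H : Rg Kz X N a h x y γ) (hι : Ind ι P) {lg : Fx A B (dec P) →+ K}
    (k : Lk ι lg) : ∃ m, ∀ {n N' L c d : ℕ} {v : GQ → Fin 2 → Zn N'} {z' : GQ → Pt A B}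
      (f : Zn N' →+* Zn n) {R : Type} [CommRing R] {j : Zn n →+* R} {Ψ : GQ →* R} {π : R →+ Zn n}
      {ω : ZMod L → ℤ} {κ : GQ →* (ZMod L)ˣ} {z : GQ → Fin 2 → R} {β : ℤ_[pp]}, n ≤ N' → 0 < N' →
      4 * pp ^ N' ∣ L → N ∣ L → Rc.Ad N L c d γ → Ce L κ →
      Kz X A B x y L N' (sF c (rg L γ 0)) (sF d (rg L γ 1)) z' →
      (∀ g ∈ Hm L, z' g = co (hq h) N' (v g)) →
      Ch ⊤ (aa (rj (hq h) N') (j.comp f) Ψ) z
        (j.comp f (rz N' β) • cor (rj (hq h) N') (j.comp f) Ψ (Hm L) v) →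
      (∀ s r, π (j s * r) = s * π r) → (∀ g, π (Ψ g) = ω (κ g)) → (∀ t, ω t ≠ 0 → IsUnit t) →
      (∀ t, ω (-t) = ω t) → (∀ g ∈ dec P, Ψ g = 1 ∧ ∀ u : (ZMod L)ˣ, ω (κ g * u) = ω u) →
      ∃ (b : Qb) (θ : K) (u : ℤ_[pp]ˣ), am θ = ι b ∧ io b * w0 A B = Lw a (fun i => sm c d ω i) ∧
        Cp.Zn (dec P) n (fun g => co (hq h) n (π ∘ z g)) ∧
        Top.Rc h P lg m n (fun g => co (hq h) n (π ∘ z g)) ((u * β : ℤ_[pp]) * θ) := by
  obtain ⟨R0, r0, H⟩ := H ι P hι lg k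
  obtain ⟨m, hm⟩ := Rx.one h hι k r0
  refine ⟨m, fun {n N' L c d v z'} f {R} _ {j Ψ π ω κ z β} le' N0 ⟨M, eL⟩ NL ad C kz e ch hπ hω un
    ev inv => ?_⟩
  have o := hι.ov
  have := Pl.Zw.fin_jx C.ne
  have := Fintype.ofFinite (Jx L)
  obtain ⟨u, ou, H⟩ := H (4 * M) N' L (by rw [eL]; ring) N0
    (Nat.pos_of_ne_zero fun z => C.ne (by rw [eL, mul_right_comm, z, zero_mul])) ⟨M, rfl⟩ NL
  obtain ⟨R', eR⟩ := (Ki.pr (hq h)).dvp N' R0.1
  obtain ⟨b, θ, e1, e2, zn, e3⟩ := H c d z' ad kz (Jx L) (so L) (pa L) (ka κ) ω R'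
    ⟨inferInstance, Pl.Zw.tr L, fun i => C.cyc _, un, fun g p => C.inv (inv g p).2⟩ ev eR
  obtain ⟨s, os, r1⟩ := rc_un o zn nd_four (hm _ 4 _ _ R' zn eR e3)
  obtain ⟨e', rfl⟩ := Nat.exists_eq_add_of_le le'
  have zn' := Rx.Zn.down zn
  have r2 := Rx.rc_down o zn r1
  obtain ⟨δ, u', d1, d2⟩ := ex_int β n
  rw [aa_red h f le', show cor (rj (hq h) _) (j.comp f) Ψ (Hm L) v =
    cor (rj (hq h) n) j Ψ (Hm L) fun g => f ∘ v g from funext fun g => by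
      rw [cor, cor, aa_red h f le']; rfl] at ch
  obtain ⟨t, t0, ht⟩ := Pl.Zw.Ce.ch_eq C hπ (Ew.xy_co (hq h) n).act hω (z := pp ^ e' • z')
    (fun g p => by rw [Ew.co_red _ le', Pi.smul_apply, e g p, Nat.add_sub_cancel_left])
    (δ := δ) (by rw [RingHom.comp_apply, red_rz f le', d2, map_intCast]) ch
  have ht' : ∀ g ∈ dec P, co (hq h) n (π ∘ z g) =
      (δ • pp ^ e' • zw (so L) (pa L) (fun i => ω (ka κ i)) z') g + (ga g t - t) := fun g p => by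
    rw [ht g (inv g p).1 (inv g p).2]
    simp only [Pi.smul_apply, zw, map_nsmul, Finset.smul_sum, smul_comm (pp ^ e')]
  have zn2 := zn_cob (Rx.Zn.zsmul zn' δ) t0 ht'
  have uu := un_int (nd_mul os (nd_mul (u := (4 : ℕ))
    (fun d => nd_four (Int.natCast_dvd_natCast.1 d)) ou))
  refine ⟨b, θ, u' * uu.unit, e1, e2, zn2, ?_⟩
  have r3 := Rx.rc_km o (Rx.Zn.zsmul zn' δ) (Rx.rc_zsmul o zn' r2 δ) zn2 (t := t) fun g p =>
    sub_eq_of_eq_add' (ht' g p)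
  rwa [show ((δ : K) * (s * (4 * u * θ))) = ((u' * uu.unit : ℤ_[pp]ˣ) * β : ℤ_[pp]) * θ by
    rw [← PadicInt.coe_intCast, d1, Units.val_mul, uu.unit_spec]
    simp only [PadicInt.coe_mul, PadicInt.coe_intCast]
    push_cast
    ring] at r3

end Vale.Agent.P014U.Zr
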